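import Vale.Agent.P219.H381.FDefs

/-!
# P219: the notions of the problem, in terms of the Riemannian distance
`M` is a smooth Hausdorff manifold of dimension `n` and `g` is one of Mathlib's `C^∞` Riemannian
metrics on `M`.
-/

open scoped Manifold ContDiff ENNReal
open Set MeasureTheory Bundle

noncomputable section

namespace Vale.Agent.P219W

open Vale.Agent.P255 (RMetric coefIn Riem)
open Vale.Agent.P219.Co (E modelVol modelArea)
open Vale.Agent.P219.Mfd (pullInner)

variable {n : ℕ} {M : Type} [TopologicalSpace M] [T2Space M] [ChartedSpace (E n) M]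
  [IsManifold 𝓘(ℝ, E n) ∞ M]

/-- `M` with the Riemannian distance of `g`, the infimum of the lengths of the `C¹` paths
(Mathlib's construction; it induces the topology of `M`). -/
abbrev riemSpace (g : RMetric (E n) M) : EMetricSpace M :=
  letI : RiemannianBundle (fun x : M => TangentSpace 𝓘(ℝ, E n) x) :=
    ⟨g.toContinuousRiemannianMetric.toRiemannianMetric⟩
  haveI : LocallyCompactSpace M := ChartedSpace.locallyCompactSpace (E n) M
  EMetricSpace.ofRiemannianMetric 𝓘(ℝ, E n) M

/-- The Riemannian distance. -/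
def rdist (g : RMetric (E n) M) (x y : M) : ℝ≥0∞ := (riemSpace g).edist x y

/-- `(M, g)` is complete: Cauchy sequences for the Riemannian distance converge. -/
def IsComplete (g : RMetric (E n) M) : Prop :=
  letI := riemSpace g
  CompleteSpace M

/-- The geodesic ball of centre `o` and radius `r`. -/
def gball (g : RMetric (E n) M) (o : M) (r : ℝ) : Set M := {x | rdist g o x < ENNReal.ofReal r}

omit [T2Space M] [IsManifold 𝓘(ℝ, E n) ∞ M] in
variable (n) in
/-- `S` is a smooth hypersurface: near each point `p` of `S`, it is the zero set of a smooth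
function `f` with `df ≠ 0` at `p`. -/
def IsHypersurface (S : Set M) : Prop :=
  ∀ p ∈ S, ∃ (U : Set M) (f : M → ℝ), IsOpen U ∧ p ∈ U ∧ ContMDiffOn 𝓘(ℝ, E n) 𝓘(ℝ, ℝ) ∞ f U ∧
    S ∩ U = {x ∈ U | f x = 0} ∧ mfderiv 𝓘(ℝ, E n) 𝓘(ℝ, ℝ) f p ≠ 0

/-- Domains: bounded open sets with smooth boundary. -/
structure IsDom (g : RMetric (E n) M) (Ω : Set M) : Prop where
  isOpen : IsOpen Ω
  bounded : ∃ R : ℝ, ∀ x ∈ Ω, ∀ y ∈ Ω, rdist g x y ≤ ENNReal.ofReal R
  smooth : IsHypersurface n (frontier Ω)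

/-- The `k`-dimensional Riemannian measure: the `k`-dimensional Hausdorff measure of the
Riemannian distance, normalized so that it is Lebesgue measure on `ℝᵏ`. -/
def rmeas [MeasurableSpace M] [BorelSpace M] (g : RMetric (E n) M) (k : ℕ) : Measure M :=
  letI := riemSpace g
  μHE[k]

omit [T2Space M] in
/-- The matrix of the metric induced by `g` on a parametrized submanifold `φ : ℝᵏ → M`. -/
def induced {k : ℕ} (g : RMetric (E n) M) (φ : E k → M) (y : E k) : Matrix (Fin k) (Fin k) ℝ :=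
  Matrix.of fun i j => pullInner g φ y (EuclideanSpace.single i 1) (EuclideanSpace.single j 1)

omit [T2Space M] in
/-- `Sec = κ`: `⟨R(v,w)w, v⟩ = κ (|v|² |w|² - ⟨v,w⟩²)` for all tangent vectors `v, w` at all points
(components in the chart at `a`). -/
def SecEq (g : RMetric (E n) M) (κ : ℝ) : Prop :=
  ∀ a : M, ∀ u ∈ (chartAt (E n) a).target, ∀ v w : E n,
    coefIn g a u (Riem (coefIn g a) u v w w) v =
      κ * (coefIn g a u v v * coefIn g a u w w - coefIn g a u v w ^ 2)

/-- `(M, g)` is a simply connected space form of curvature `κ`. -/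
structure IsSpaceForm (g : RMetric (E n) M) (κ : ℝ) : Prop where
  simplyConnected : SimplyConnectedSpace M
  complete : IsComplete g
  sec : SecEq g κ

omit [T2Space M] in
/-- The open sets `B` of `(N, h)` and `Ω` of `(M, g)`, with the induced metrics, are isometric:
there is a diffeomorphism `φ : B → Ω` with `φ^* g = h`. -/
def Isometric {N : Type} [TopologicalSpace N] [ChartedSpace (E n) N] [IsManifold 𝓘(ℝ, E n) ∞ N]
    (h : RMetric (E n) N) (B : Set N) (g : RMetric (E n) M) (Ω : Set M) : Prop :=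
  ∃ (φ : N → M) (ψ : M → N), ContMDiffOn 𝓘(ℝ, E n) 𝓘(ℝ, E n) ∞ φ B ∧
    ContMDiffOn 𝓘(ℝ, E n) 𝓘(ℝ, E n) ∞ ψ Ω ∧ MapsTo φ B Ω ∧ MapsTo ψ Ω B ∧ InvOn ψ φ B Ω ∧
    ∀ y ∈ B, ∀ v w : TangentSpace 𝓘(ℝ, E n) y, g.inner (φ y)
      (mfderiv 𝓘(ℝ, E n) 𝓘(ℝ, E n) φ y v) (mfderiv 𝓘(ℝ, E n) 𝓘(ℝ, E n) φ y w) = h.inner y v w

/-- The model isoperimetric profile `I_κ(V) = A_κ(V_κ⁻¹(V))`. -/
def profile (n : ℕ) (κ V : ℝ) : ℝ :=
  modelArea n κ (Function.invFunOn (modelVol n κ) (Ici 0) V)

end Vale.Agent.P219W
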