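import Vale.Agent.P219.H381.FDefs

/-!
# P219: the notions of the problem, in terms of the Riemannian distance
`M` is a smooth Hausdorff manifold modelled on the finite-dimensional space `V`, and `g` is one of
Mathlib's `C^∞` Riemannian metrics on `M`.
-/

open scoped Manifold ContDiff ENNReal
open Set MeasureTheory Bundle

noncomputable section

namespace Vale.Agent.P219S

open Vale.Agent.P255 (RMetric coefIn Riem)
open Vale.Agent.P219.Co (E modelVol modelArea)
open Vale.Agent.P219.Mfd (pullInner SmoothMapOn)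

variable {V : Type} [NormedAddCommGroup V] [NormedSpace ℝ V]
variable {M : Type} [TopologicalSpace M] [ChartedSpace V M]

variable (V) in
/-- `S` is a smooth hypersurface: near each point `p` of `S`, it is the zero set of a smooth
function `f` with `df ≠ 0` at `p`. -/
def IsHypersurface (S : Set M) : Prop :=
  ∀ p ∈ S, ∃ (U : Set M) (f : M → ℝ), IsOpen U ∧ p ∈ U ∧ ContMDiffOn 𝓘(ℝ, V) 𝓘(ℝ, ℝ) ∞ f U ∧
    S ∩ U = {x ∈ U | f x = 0} ∧ mfderiv 𝓘(ℝ, V) 𝓘(ℝ, ℝ) f p ≠ 0

variable (V) in
/-- `φ` is an injective smooth immersion of the open subset `U` of `W` into `M`. -/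
def IsParam {W : Type} [NormedAddCommGroup W] [NormedSpace ℝ W] (φ : W → M) (U : Set W) : Prop :=
  IsOpen U ∧ SmoothMapOn V φ U ∧ InjOn φ U ∧
    ∀ y ∈ U, Function.Injective (mfderiv 𝓘(ℝ, W) 𝓘(ℝ, V) φ y)

variable [IsManifold 𝓘(ℝ, V) ∞ M]

/-- The matrix of the metric induced by `g` on a parametrized submanifold `φ : ℝᵏ → M`. -/
def induced {k : ℕ} (g : RMetric V M) (φ : E k → M) (y : E k) : Matrix (Fin k) (Fin k) ℝ :=
  Matrix.of fun i j => pullInner g φ y (EuclideanSpace.single i 1) (EuclideanSpace.single j 1)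

/-- `Sec = κ`: `⟨R(v,w)w, v⟩ = κ (|v|² |w|² - ⟨v,w⟩²)` for all tangent vectors `v, w` at all points
(components in the chart at `a`). -/
def SecEq (g : RMetric V M) (κ : ℝ) : Prop :=
  ∀ a : M, ∀ u ∈ (chartAt V a).target, ∀ v w : V,
    coefIn g a u (Riem (coefIn g a) u v w w) v =
      κ * (coefIn g a u v v * coefIn g a u w w - coefIn g a u v w ^ 2)

/-- The open sets `B` of `(N, h)` and `Ω` of `(M, g)`, with the induced metrics, are isometric:
there is a diffeomorphism `φ : B → Ω` with `φ^* g = h`. -/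
def Isometric {N : Type} [TopologicalSpace N] [ChartedSpace V N] [IsManifold 𝓘(ℝ, V) ∞ N]
    (h : RMetric V N) (B : Set N) (g : RMetric V M) (Ω : Set M) : Prop :=
  ∃ (φ : N → M) (ψ : M → N), ContMDiffOn 𝓘(ℝ, V) 𝓘(ℝ, V) ∞ φ B ∧
    ContMDiffOn 𝓘(ℝ, V) 𝓘(ℝ, V) ∞ ψ Ω ∧ MapsTo φ B Ω ∧ MapsTo ψ Ω B ∧ InvOn ψ φ B Ω ∧
    ∀ y ∈ B, ∀ v w : TangentSpace 𝓘(ℝ, V) y, g.inner (φ y)
      (mfderiv 𝓘(ℝ, V) 𝓘(ℝ, V) φ y v) (mfderiv 𝓘(ℝ, V) 𝓘(ℝ, V) φ y w) = h.inner y v w

variable [LocallyCompactSpace V] [T2Space M]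

/-- `M` with the Riemannian distance of `g`, the infimum of the lengths of the `C¹` paths
(Mathlib's construction; it induces the topology of `M`). -/
abbrev riemSpace (g : RMetric V M) : EMetricSpace M :=
  letI : RiemannianBundle (fun x : M => TangentSpace 𝓘(ℝ, V) x) :=
    ⟨g.toContinuousRiemannianMetric.toRiemannianMetric⟩
  haveI : LocallyCompactSpace M := ChartedSpace.locallyCompactSpace V M
  EMetricSpace.ofRiemannianMetric 𝓘(ℝ, V) M

/-- The Riemannian distance. -/
def rdist (g : RMetric V M) (x y : M) : ℝ≥0∞ := (riemSpace g).edist x y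

/-- `(M, g)` is complete: Cauchy sequences for the Riemannian distance converge. -/
def MetricComplete (g : RMetric V M) : Prop :=
  letI := riemSpace g
  CompleteSpace M

/-- The geodesic ball of centre `o` and radius `r`. -/
def gball (g : RMetric V M) (o : M) (r : ℝ) : Set M := {x | rdist g o x < ENNReal.ofReal r}

/-- Domains: bounded open sets with smooth boundary. -/
def IsDom (g : RMetric V M) (Ω : Set M) : Prop :=
  IsOpen Ω ∧ (∃ R : ℝ, ∀ x ∈ Ω, ∀ y ∈ Ω, rdist g x y ≤ ENNReal.ofReal R) ∧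
    IsHypersurface V (frontier Ω)

/-- `(M, g)` is a simply connected space form of curvature `κ`. -/
def IsSpaceForm (g : RMetric V M) (κ : ℝ) : Prop :=
  SimplyConnectedSpace M ∧ MetricComplete g ∧ SecEq g κ

variable (V) in
/-- `V` carries a metric which makes it a simply connected space form of curvature `κ`. -/
def HasSpaceForm (κ : ℝ) : Prop := ∃ h : RMetric V V, IsSpaceForm h κ

variable [MeasurableSpace M] [BorelSpace M]

/-- The `k`-dimensional Riemannian measure: the `k`-dimensional Hausdorff measure of the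
Riemannian distance, normalized so that it is Lebesgue measure on `ℝᵏ`. -/
def rmeas (g : RMetric V M) (k : ℕ) : Measure M :=
  letI := riemSpace g
  μHE[k]

/-- The `k`-dimensional measure of a piece of a parametrized `k`-dimensional submanifold is its
volume for the induced metric. -/
def AreaFormula (g : RMetric V M) : Prop :=
  ∀ (k : ℕ) (φ : E k → M) (U s : Set (E k)), IsParam V φ U → MeasurableSet s → s ⊆ U →
    rmeas g k (φ '' s) = ∫⁻ y in s, ENNReal.ofReal √(induced g φ y).det

/-- Geodesic balls are domains, with volume `V_κ (r)` and boundary area `A_κ (r)`. -/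
def BallFormulas (g : RMetric V M) (n : ℕ) (κ : ℝ) : Prop :=
  ∀ (o : M) (r : ℝ), 0 ≤ r → IsDom g (gball g o r) ∧
    rmeas g n (gball g o r) = ENNReal.ofReal (modelVol n κ r) ∧
    rmeas g (n - 1) (frontier (gball g o r)) = ENNReal.ofReal (modelArea n κ r)

/-- The model isoperimetric profile `I_κ(V) = A_κ(V_κ⁻¹(V))`. -/
def profile (n : ℕ) (κ v : ℝ) : ℝ :=
  modelArea n κ (Function.invFunOn (modelVol n κ) (Ici 0) v)

end Vale.Agent.P219S
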