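import Vale.Agent.P219W.Rows2

/-!
# P219W: geodesic balls are domains
-/

open scoped Manifold ContDiff ENNReal Topology RealInnerProductSpace
open Set MeasureTheory

set_option linter.all false
set_option maxSynthPendingDepth 3

noncomputable section

namespace Vale.Agent.P219W

open Vale.Agent.P255 (RMetric)
open Vale.Agent.P219.Co (E)

variable {n : ℕ} {M : Type} [TopologicalSpace M] [T2Space M] [ChartedSpace (E n) M]
  [IsManifold 𝓘(ℝ, E n) ∞ M]

omit [T2Space M] in
theorem isometric_refl (g : RMetric (E n) M) (B : Set M) : Isometric g B g B := by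
  refine ⟨id, id, contMDiffOn_id, contMDiffOn_id, mapsTo_id _, mapsTo_id _,
    ⟨fun _ _ => rfl, fun _ _ => rfl⟩, fun y _ v w => ?_⟩
  rw [mfderiv_id]
  rfl

theorem ball_row (g : RMetric (E n) M) : BALL g := by
  intro hN p r
  obtain ⟨Ψ, hΨ⟩ := hN p
  have hb : gball g p r = Ψ.toHomeomorph.symm ⁻¹' Metric.ball 0 r := by
    rw [hΨ.gball, Homeomorph.preimage_symm]
    rfl
  rcases le_or_gt r 0 with hr | hr
  · have h0 : gball g p r = ∅ := by rw [hb, Metric.ball_eq_empty.2 hr, preimage_empty]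
    refine ⟨?_, by simp [h0], isometric_refl g _⟩
    rw [h0]
    exact ⟨isOpen_empty, ⟨0, fun x hx => absurd hx (notMem_empty x)⟩, fun q hq => by simp at hq⟩
  refine ⟨⟨?_, ⟨r + r, fun x hx y hy => ?_⟩, fun q hq => ?_⟩, ?_, isometric_refl g _⟩
  · rw [hb]
    exact Metric.isOpen_ball.preimage Ψ.toHomeomorph.symm.continuous
  · have h1 : rdist g p x < ENNReal.ofReal r := hx
    have h2 : rdist g p y < ENNReal.ofReal r := hy
    rw [ENNReal.ofReal_add hr.le hr.le]
    refine (rdist_triangle g x p y).trans (add_le_add ?_ h2.le)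
    rw [rdist_comm]
    exact h1.le
  · have hfr : frontier (gball g p r) = {x | ‖Ψ.symm x‖ ^ 2 - r ^ 2 = 0} := by
      rw [hb, ← Homeomorph.preimage_frontier, frontier_ball _ hr.ne']
      ext x
      rw [mem_preimage, mem_sphere_zero_iff_norm, mem_setOf_eq, sub_eq_zero,
        sq_eq_sq₀ (norm_nonneg _) hr.le]
      rfl
    have hF : ContDiff ℝ ∞ fun z : E n => ‖z‖ ^ 2 - r ^ 2 :=
      (contDiff_norm_sq ℝ).sub contDiff_const
    have hf : ContMDiff 𝓘(ℝ, E n) 𝓘(ℝ, ℝ) ∞ fun x : M => ‖Ψ.symm x‖ ^ 2 - r ^ 2 :=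
      hF.contMDiff.comp Ψ.symm.contMDiff
    refine ⟨univ, _, isOpen_univ, mem_univ _, hf.contMDiffOn, by rw [hfr]; ext; simp, fun h0 => ?_⟩
    obtain ⟨z, rfl⟩ := Ψ.surjective q
    have e : Ψ.toEquiv z = Ψ z := rfl
    rw [e] at h0 hq
    have hz : ‖z‖ ^ 2 - r ^ 2 = 0 := by
      rw [hfr] at hq
      have h1 : ‖Ψ.symm (Ψ z)‖ ^ 2 - r ^ 2 = 0 := hq
      rwa [Ψ.symm_apply_apply] at h1
    have h1 := mfderiv_comp z (hf.mdifferentiableAt (x := Ψ z) (by simp))
      ((Ψ.contMDiff z).mdifferentiableAt (by simp))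
    have h2 : ((fun x : M => ‖Ψ.symm x‖ ^ 2 - r ^ 2) ∘ Ψ) = fun z : E n => ‖z‖ ^ 2 - r ^ 2 := by
      funext y
      simp only [Function.comp, Ψ.symm_apply_apply]
    rw [h2, h0, mfderiv_eq_fderiv, ((hasStrictFDerivAt_norm_sq z).hasFDerivAt.sub_const _).fderiv]
      at h1
    have h3 : (2 • innerSL ℝ z) z = 0 := congrArg (fun L => L z) h1
    have h4 : (2 • innerSL ℝ z) z = 2 * ‖z‖ ^ 2 := by
      rw [← real_inner_self_eq_norm_sq]
      simp
    nlinarith
  · rw [hb, ← Homeomorph.preimage_closure, ← Homeomorph.preimage_interior,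
      closure_ball _ hr.ne', interior_closedBall _ hr.ne']

end Vale.Agent.P219W
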