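import Vale.Agent.P219W.Rows

/-!
# P219W: the Riemannian distance and the lengths of curves
-/

open scoped Manifold ContDiff ENNReal Topology
open Set MeasureTheory Bundle Filter

set_option linter.all false

noncomputable section

namespace Vale.Agent.P219W

open Vale.Agent.P255 (RMetric)
open Vale.Agent.P219.Co (E)
open Vale.Agent.P219.RG (IsGeodesicOn toMetric cc coefL coefL_apply fderiv_trans_self)

variable {n : ℕ} {M : Type} [TopologicalSpace M] [T2Space M] [ChartedSpace (E n) M]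
  [IsManifold 𝓘(ℝ, E n) ∞ M]

omit [T2Space M] in
/-- the square of the speed of a curve -/
def spd (g : RMetric (E n) M) (γ : ℝ → M) (t : ℝ) : ℝ :=
  g.inner (γ t) (mfderiv 𝓘(ℝ, ℝ) 𝓘(ℝ, E n) γ t (1 : ℝ)) (mfderiv 𝓘(ℝ, ℝ) 𝓘(ℝ, E n) γ t (1 : ℝ))

variable (g : RMetric (E n) M)

theorem rdist_self (x : M) : rdist g x x = 0 := (riemSpace g).edist_self x

theorem rdist_comm (x y : M) : rdist g x y = rdist g y x := (riemSpace g).edist_comm x y

theorem rdist_triangle (x y z : M) : rdist g x z ≤ rdist g x y + rdist g y z :=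
  (riemSpace g).edist_triangle x y z

/-- the Riemannian distance induces the topology -/
theorem nhds_basis (x : M) :
    (𝓝 x).HasBasis (fun ε : ℝ≥0∞ => 0 < ε) (fun ε => {y | rdist g y x < ε}) := by
  letI := riemSpace g
  exact Metric.nhds_basis_eball

theorem rdist_eq (x y : M) : rdist g x y =
    (letI : RiemannianBundle (fun x : M => TangentSpace 𝓘(ℝ, E n) x) :=
      ⟨g.toContinuousRiemannianMetric.toRiemannianMetric⟩
    Manifold.riemannianEDist 𝓘(ℝ, E n) x y) := rfl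

omit [T2Space M] in
theorem len_eq (γ : ℝ → M) (a b : ℝ) :
    (letI : RiemannianBundle (fun x : M => TangentSpace 𝓘(ℝ, E n) x) :=
      ⟨g.toContinuousRiemannianMetric.toRiemannianMetric⟩
    Manifold.pathELength 𝓘(ℝ, E n) γ a b) = ∫⁻ t in Ioo a b, ENNReal.ofReal √(spd g γ t) := by
  letI : RiemannianBundle (fun x : M => TangentSpace 𝓘(ℝ, E n) x) :=
    ⟨g.toContinuousRiemannianMetric.toRiemannianMetric⟩
  rw [Manifold.pathELength_eq_lintegral_mfderiv_Ioo]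
  refine lintegral_congr fun t => ?_
  rw [← ofReal_norm, norm_eq_sqrt_real_inner]
  rfl

/-- the distance is at most the length -/
theorem rdist_le_len {γ : ℝ → M} {a b : ℝ} (hγ : ContMDiffOn 𝓘(ℝ, ℝ) 𝓘(ℝ, E n) 1 γ (Icc a b))
    (hab : a ≤ b) : rdist g (γ a) (γ b) ≤ ∫⁻ t in Ioo a b, ENNReal.ofReal √(spd g γ t) := by
  letI : RiemannianBundle (fun x : M => TangentSpace 𝓘(ℝ, E n) x) :=
    ⟨g.toContinuousRiemannianMetric.toRiemannianMetric⟩
  rw [← len_eq, rdist_eq]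
  exact Manifold.riemannianEDist_le_pathELength hγ rfl rfl hab

theorem rdist_le_of_speed {γ : ℝ → M} {a b C : ℝ}
    (hγ : ContMDiffOn 𝓘(ℝ, ℝ) 𝓘(ℝ, E n) 1 γ (Icc a b)) (hab : a ≤ b) (hC0 : 0 ≤ C)
    (hC : ∀ t ∈ Ioo a b, spd g γ t ≤ C ^ 2) :
    rdist g (γ a) (γ b) ≤ ENNReal.ofReal (C * (b - a)) := by
  refine (rdist_le_len g hγ hab).trans ?_
  calc ∫⁻ t in Ioo a b, ENNReal.ofReal √(spd g γ t) ≤ ∫⁻ _ in Ioo a b, ENNReal.ofReal C := by
        refine setLIntegral_mono' measurableSet_Ioo fun t ht => ENNReal.ofReal_le_ofReal ?_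
        exact (Real.sqrt_le_left hC0).2 (hC t ht)
    _ = ENNReal.ofReal (C * (b - a)) := by
        rw [setLIntegral_const, Real.volume_Ioo, ENNReal.ofReal_mul hC0]

/-- almost minimizing curves -/
theorem exists_curve {x y : M} {r : ℝ≥0∞} (h : rdist g x y < r) :
    ∃ γ : ℝ → M, γ 0 = x ∧ γ 1 = y ∧ ContMDiff 𝓘(ℝ, ℝ) 𝓘(ℝ, E n) 1 γ ∧
      ∫⁻ t in Ioo (0 : ℝ) 1, ENNReal.ofReal √(spd g γ t) < r := by
  letI : RiemannianBundle (fun x : M => TangentSpace 𝓘(ℝ, E n) x) :=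
    ⟨g.toContinuousRiemannianMetric.toRiemannianMetric⟩
  rw [rdist_eq] at h
  obtain ⟨γ, h0, h1, h2, h3, -⟩ :=
    Manifold.exists_lt_locally_constant_of_riemannianEDist_lt h zero_lt_one
  exact ⟨γ, h0, h1, h2, by rw [← len_eq]; exact h3⟩

omit [T2Space M] in
theorem ip_eq (m : M) (v w : E n) : (toMetric g).ip m v w = g.inner m v w := by
  have hu := mem_chart_target (E n) m
  have h := coefL_apply g m hu m ((chartAt (E n) m).left_inv (mem_chart_source _ m)).symm v w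
  rw [fderiv_trans_self m hu, fderiv_trans_self m hu] at h
  exact h

omit [T2Space M] [IsManifold 𝓘(ℝ, E n) ∞ M] in
theorem mfderiv_cc {γ : ℝ → M} {t : ℝ} (hc : ContinuousAt γ t)
    (hd : DifferentiableAt ℝ (cc (E := E n) γ (γ t)) t) :
    (mfderiv 𝓘(ℝ, ℝ) 𝓘(ℝ, E n) γ t (1 : ℝ) : E n) = deriv (cc (E := E n) γ (γ t)) t := by
  have h : MDifferentiableAt 𝓘(ℝ, ℝ) 𝓘(ℝ, E n) γ t := by
    rw [mdifferentiableAt_iff]
    refine ⟨hc, ?_⟩
    simp only [modelWithCornersSelf_coe, range_id, differentiableWithinAt_univ]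
    exact hd
  have h2 : fderivWithin ℝ (writtenInExtChartAt 𝓘(ℝ, ℝ) 𝓘(ℝ, E n) t γ)
      (range 𝓘(ℝ, ℝ)) (extChartAt 𝓘(ℝ, ℝ) t t) = fderiv ℝ (cc (E := E n) γ (γ t)) t := by
    simp only [modelWithCornersSelf_coe, range_id, fderivWithin_univ]
    rfl
  have h3 := h.mfderiv.trans h2
  exact congrArg (fun L : ℝ →L[ℝ] E n => L 1) h3

omit [T2Space M] in
theorem spd_eq_sp {γ : ℝ → M} {t : ℝ} (hc : ContinuousAt γ t)
    (hd : DifferentiableAt ℝ (cc (E := E n) γ (γ t)) t) : spd g γ t = (toMetric g).sp γ t := by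
  unfold spd Vale.Agent.P219.RG.Metric.sp
  rw [ip_eq, ← mfderiv_cc hc hd]

variable {g}

omit [T2Space M] in
/-- geodesics are `C¹` -/
theorem geo_contMDiffOn {γ : ℝ → M} {s : Set ℝ} (h : IsGeodesicOn (toMetric g) γ s)
    (hs : IsOpen s) : ContMDiffOn 𝓘(ℝ, ℝ) 𝓘(ℝ, E n) 1 γ s := by
  intro t ht
  refine ContMDiffAt.contMDiffWithinAt ?_
  have hc := h.contAt hs ht
  rw [contMDiffAt_iff_target]
  refine ⟨hc, ContDiffAt.contMDiffAt ?_⟩
  have hev : ∀ᶠ x in 𝓝 t, x ∈ s ∧ γ x ∈ (chartAt (E n) (γ t)).source :=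
    (hs.eventually_mem ht).and (hc.eventually
      ((chartAt (E n) (γ t)).open_source.mem_nhds (mem_chart_source _ _)))
  change ContDiffAt ℝ 1 (cc (E := E n) γ (γ t)) t
  rw [contDiffAt_one_iff]
  obtain ⟨u, hu, huo, htu⟩ := eventually_nhds_iff.1 hev
  refine ⟨fun x => ContinuousLinearMap.toSpanSingleton ℝ (deriv (cc (E := E n) γ (γ t)) x), u,
    huo.mem_nhds htu, ?_, fun x hx => ?_⟩
  · have h1 : ContinuousOn (deriv (cc (E := E n) γ (γ t))) u := fun x hx =>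
      (h.eqn (γ t) x (hu x hx).1 (hu x hx).2).2.1.continuousAt.continuousWithinAt
    exact (ContinuousLinearMap.toSpanSingletonCLE (𝕜 := ℝ) (E := E n)).continuous.comp_continuousOn
      h1
  · exact (h.eqn (γ t) x (hu x hx).1 (hu x hx).2).1.hasDerivAt.hasFDerivAt

/-- geodesics of speed at most `C` are `C`-Lipschitz -/
theorem geo_lip {γ : ℝ → M} {a b C : ℝ} (h : IsGeodesicOn (toMetric g) γ (Ioo a b)) (hC0 : 0 ≤ C)
    (hC : ∀ t ∈ Ioo a b, (toMetric g).sp γ t ≤ C ^ 2) {s t : ℝ} (hs : s ∈ Ioo a b)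
    (ht : t ∈ Ioo a b) : rdist g (γ s) (γ t) ≤ ENNReal.ofReal (C * |t - s|) := by
  wlog hst : s ≤ t generalizing s t
  · rw [rdist_comm, abs_sub_comm]
    exact this ht hs (le_of_not_ge hst)
  have hsub : Icc s t ⊆ Ioo a b := Icc_subset_Ioo hs.1 ht.2
  rw [abs_of_nonneg (sub_nonneg.2 hst)]
  refine rdist_le_of_speed g ((geo_contMDiffOn h isOpen_Ioo).mono hsub) hst hC0 fun x hx => ?_
  have hx' := hsub (Ioo_subset_Icc_self hx)
  rw [spd_eq_sp g (h.contAt isOpen_Ioo hx') (h.eqn (γ x) x hx' (mem_chart_source _ _)).1]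
  exact hC x hx'

end Vale.Agent.P219W
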