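import Vale.Agent.P219W.Defs
import Vale.Agent.P219.H732.Prof

/-!
# P219W: the model isoperimetric profile
-/

open Set

set_option linter.all false

noncomputable section

namespace Vale.Agent.P219W

open Vale.Agent.P219.Co (modelVol modelArea omega sn)
open Vale.Agent.P219.Co.Prof732

variable {n : ℕ}

theorem profile_vol (hn : 1 ≤ n) (κ : ℝ) {r : ℝ} (hr : 0 ≤ r) :
    profile n κ (modelVol n κ r) = modelArea n κ r := by
  unfold profile
  rw [(vol_strictMono hn κ).injOn.leftInvOn_invFunOn (mem_Ici.2 hr)]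

theorem vol_bijOn (hn : 1 ≤ n) (κ : ℝ) : BijOn (modelVol n κ) (Ici 0) (Ici 0) := by
  refine ⟨fun r hr => vol_nonneg hn κ hr, (vol_strictMono hn κ).injOn, fun V hV => ?_⟩
  have hV0 : 0 ≤ V := hV
  have hA := area_pos hn κ one_pos
  set c := modelArea n κ 1 with hc
  set R := 1 + V / c with hR
  have hR1 : 1 ≤ R := by
    have : 0 ≤ V / c := div_nonneg hV0 hA.le
    linarith
  have hm : MonotoneOn (fun t => modelVol n κ t - c * t) (Ici 1) := by
    have hd : ∀ t, HasDerivAt (fun t => modelVol n κ t - c * t) (modelArea n κ t - c * 1) t :=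
      fun t => (hasDerivAt_vol κ t).sub ((hasDerivAt_id t).const_mul c)
    refine monotoneOn_of_deriv_nonneg (convex_Ici 1)
      (fun t _ => (hd t).continuousAt.continuousWithinAt)
      (fun t _ => (hd t).differentiableAt.differentiableWithinAt) fun t ht => ?_
    rw [interior_Ici] at ht
    have ht1 : (1 : ℝ) ≤ t := le_of_lt ht
    rw [(hd t).deriv, mul_one, sub_nonneg]
    exact area_mono κ (mem_Ici.2 zero_le_one) (mem_Ici.2 (zero_le_one.trans ht1)) ht1
  have h1 := hm (mem_Ici.2 le_rfl) (mem_Ici.2 hR1) hR1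
  have h2 := vol_nonneg hn κ (zero_le_one (α := ℝ))
  have h3 : c * R = c + V := by rw [hR]; field_simp
  have h4 : V ≤ modelVol n κ R := by
    simp only at h1
    linarith
  obtain ⟨t, ht, h5⟩ := intermediate_value_Icc (zero_le_one.trans hR1)
    (vol_cont (n := n) κ).continuousOn
    (show V ∈ Icc (modelVol n κ 0) (modelVol n κ R) from ⟨by rw [vol_zero]; exact hV0, h4⟩)
  exact ⟨t, ht.1, h5⟩

theorem profile_zero (hn : 1 ≤ n) {V : ℝ} (hV : 0 ≤ V) :
    profile n 0 V = n * omega n ^ (1 / (n : ℝ)) * V ^ (((n : ℝ) - 1) / n) := by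
  obtain ⟨r, hr, rfl⟩ := (vol_bijOn hn 0).surjOn (mem_Ici.2 hV)
  have hr0 : 0 ≤ r := hr
  rw [profile_vol hn 0 hr0]
  obtain ⟨m, rfl⟩ : ∃ m, n = m + 1 := ⟨n - 1, by omega⟩
  have hω := omega_pos (m + 1)
  have hs : ∀ t, sn √(-0) t = t := fun t => by simp [sn]
  have hm : (0 : ℝ) < (m : ℝ) + 1 := by positivity
  have h1 : modelVol (m + 1) 0 r = omega (m + 1) * r ^ (m + 1) := by
    unfold modelVol
    simp only [hs, Nat.add_sub_cancel, integral_pow, Nat.cast_add, Nat.cast_one]
    field_simp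
    simp
  rw [h1]
  unfold modelArea
  simp only [hs, Nat.add_sub_cancel, Nat.cast_add, Nat.cast_one, add_sub_cancel_right]
  rw [Real.mul_rpow hω.le (by positivity), ← Real.rpow_natCast r (m + 1), ← Real.rpow_mul hr0,
    mul_assoc, mul_assoc, ← mul_assoc (omega (m + 1) ^ _), ← Real.rpow_add hω]
  have e1 : 1 / ((m : ℝ) + 1) + (m : ℝ) / ((m : ℝ) + 1) = 1 := by field_simp; ring
  have e2 : ((m + 1 : ℕ) : ℝ) * ((m : ℝ) / ((m : ℝ) + 1)) = (m : ℝ) := by
    push_cast; field_simp
  rw [e1, e2, Real.rpow_one, Real.rpow_natCast]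

end Vale.Agent.P219W
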