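import Vale.Agent.P219W.Norm

/-!
# P219W: open sets bounded by a hypersurface, the statements of the steps
-/

open scoped Manifold ContDiff ENNReal
open Set MeasureTheory

namespace Vale.Agent.P219W

open Vale.Agent.P255 (RMetric)
open Vale.Agent.P219.Co (E)
open Vale.Agent.P219.Mfd

variable {n : ℕ} {M : Type} [TopologicalSpace M] [T2Space M] [ChartedSpace (E n) M]
  [IsManifold 𝓘(ℝ, E n) ∞ M]

variable (n M) in
/-- filling in the two-sided part of the boundary gives local defining functions -/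
def TWO1 : Prop := ∀ Ω : Set M, IsOpen Ω → IsHypersurface n (frontier Ω) →
  ∀ p ∈ frontier (interior (closure Ω)), ∃ U f, p ∈ U ∧
    IsDefining (V := E n) (interior (closure Ω)) U f

/-- hypersurfaces have no volume, and their nonempty open pieces have positive area -/
def TWO2 [MeasurableSpace M] [BorelSpace M] (g : RMetric (E n) M) : Prop :=
  (∀ p, ∃ Ψ, Nice g p Ψ) → ∀ S : Set M, IsHypersurface n S → rmeas g n S = 0 ∧
    ∀ p ∈ S, ∀ W : Set M, IsOpen W → p ∈ W → rmeas g (n - 1) (S ∩ W) ≠ 0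

/-- an isometric copy of a geodesic ball is a geodesic ball -/
def TWO3 {N : Type} [TopologicalSpace N] [T2Space N] [ChartedSpace (E n) N]
    [IsManifold 𝓘(ℝ, E n) ∞ N] (h : RMetric (E n) N) (g : RMetric (E n) M) : Prop :=
  (∀ o, ∃ Φ, IsNormal h o Φ) → (∀ p, ∃ Ψ, IsNormal g p Ψ) → ∀ (o : N) (r : ℝ) (Ω : Set M),
    0 < r → IsOpen Ω → Isometric h (gball h o r) g Ω → ∃ p, Ω = gball g p r

/-- geodesic balls are domains, in both senses -/
def BALL (g : RMetric (E n) M) : Prop := (∀ p, ∃ Ψ, IsNormal g p Ψ) → ∀ (p : M) (r : ℝ),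
  IsDom g (gball g p r) ∧ interior (closure (gball g p r)) = gball g p r ∧
    Isometric g (gball g p r) g (gball g p r)

end Vale.Agent.P219W
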