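import Vale.Agent.P219W.Theta
import Vale.Agent.P219W.Prof
import Vale.Agent.P219W.Rows2
import Vale.Agent.P219W13.Mod
import Vale.Agent.P219W21.AF
import Vale.Agent.P219W42.HA
import Vale.Agent.P219W42.Iso
import Vale.Agent.P219W78.CC
import Vale.Agent.P219W88.HR
import Vale.Agent.P219.H817.R11
import Vale.Agent.P219.H861.Area2

/-!
# P219W: the isoperimetric inequality for the Hausdorff measures of the Riemannian distance
-/

open scoped Manifold ContDiff ENNReal Topology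
open Set MeasureTheory

set_option linter.all false
set_option maxSynthPendingDepth 3

noncomputable section

namespace Vale.Agent.P219W

open Vale.Agent.P255 (RMetric)
open Vale.Agent.P219.Co (E sn modelVol modelArea riemVol riemArea perimeter)
open Vale.Agent.P219.Mfd
open Vale.Agent.P219H381

variable {n : ℕ} {M : Type} [TopologicalSpace M] [T2Space M] [ChartedSpace (E n) M]
  [IsManifold 𝓘(ℝ, E n) ∞ M] [MeasurableSpace M] [BorelSpace M] {g : RMetric (E n) M} {κ : ℝ}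

theorem rmeas_vol (hN : ∀ p, ∃ Ψ, Nice g p Ψ) (Ψ : E n ≃ₘ^∞⟮𝓘(ℝ, E n), 𝓘(ℝ, E n)⟯ M)
    {s : Set M} (hs : MeasurableSet s) : rmeas g n s = riemVol (pl g Ψ) (Ψ ⁻¹' s) := by
  have h := Vale.Agent.P219W21.af g hN n Ψ univ (Ψ ⁻¹' s) isOpen_univ Ψ.contMDiff.contMDiffOn
    Ψ.injective.injOn (fun y _ => (Ψ.mfderivToContinuousLinearEquiv (by simp) y).injective)
    (measurable_Psi Ψ hs) (subset_univ _)
  have hsu : Function.Surjective Ψ := Ψ.surjective
  rw [image_preimage_eq s hsu] at h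
  exact h

/-- the case of one-sided boundaries -/
theorem core [SimplyConnectedSpace M] (hn : 2 ≤ n) (hκ : κ ≤ 0) (hc : Complete g)
    (hs : SecLE g κ) {Ω : Set M} (hΩ : IsDomain (E n) Ω) :
    ∃ r : ℝ, 0 ≤ r ∧ rmeas g n Ω = ENNReal.ofReal (modelVol n κ r) ∧
      ENNReal.ofReal (modelArea n κ r) ≤ rmeas g (n - 1) (frontier Ω) ∧
      (rmeas g (n - 1) (frontier Ω) = ENNReal.ofReal (modelArea n κ r) →
        IsometricToBall g κ Ω r) ∧
      ∀ r', 0 ≤ r' → IsometricToBall g κ Ω r' →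
        r' = r ∧ rmeas g (n - 1) (frontier Ω) = ENNReal.ofReal (modelArea n κ r) := by
  have hN : ∀ p, ∃ Ψ, Nice g p Ψ := fun p =>
    (exists_normal hκ hc hs p).imp fun Ψ h => h.nice
  obtain ⟨Ψ⟩ := exists_chart hκ hc hs
  obtain ⟨D, hD⟩ := domain_pl Ψ hΩ
  obtain ⟨h0, h1⟩ := Vale.Agent.P219.Co.cartanHadamard_q1 hn hκ (pl g Ψ) (complete_pl hc Ψ)
    (secLE_pl hs Ψ)
  have hμ : rmeas g n Ω = riemVol (pl g Ψ) D.carrier := by
    rw [rmeas_vol hN Ψ hΩ.isOpen.measurableSet, hD]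
  have hσ : rmeas g (n - 1) (frontier Ω) = riemArea (pl g Ψ) D := by
    rw [← Vale.Agent.P219W42.ha g hN Ω _ hΩ (isArea_areaM g Ψ hD), areaM_univ]
  obtain ⟨r, hr, hv, ha⟩ := h0 D
  rw [hμ, hσ]
  refine ⟨r, hr, hv, ha, fun h => isometric_of_pl g Ψ hD (h1 D r hr hv h), fun r' hr' h => ?_⟩
  obtain ⟨h2, h3⟩ := Vale.Agent.P219.Co.iso_equality hn hκ (pl g Ψ) D hr' (pl_of_isometric g Ψ hD h)
  have hn1 : 1 ≤ n := by omega
  have h4 : r' = r := by
    rw [hv, ENNReal.ofReal_eq_ofReal_iff (Vale.Agent.P219.Co.Prof732.vol_nonneg hn1 κ hr)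
      (Vale.Agent.P219.Co.Prof732.vol_nonneg hn1 κ hr')] at h2
    exact ((Vale.Agent.P219.Co.Prof732.vol_strictMono hn1 κ).injOn hr hr' h2).symm
  subst h4
  exact ⟨rfl, le_antisymm ((Vale.Agent.P219.Co.area_le_perimeter hn _ D).trans h3) ha⟩

/-- the general case -/
theorem general [SimplyConnectedSpace M] (hn : 2 ≤ n) (hκ : κ ≤ 0) (hc : Complete g)
    (hs : SecLE g κ) (t1 : TWO1 n M) (t2 : TWO2 g) {Ω : Set M} (hΩ : IsDom g Ω) :
    ∃ r : ℝ, 0 ≤ r ∧ rmeas g n Ω = ENNReal.ofReal (modelVol n κ r) ∧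
      ENNReal.ofReal (modelArea n κ r) ≤ rmeas g (n - 1) (frontier Ω) ∧
      (rmeas g (n - 1) (frontier Ω) = ENNReal.ofReal (modelArea n κ r) →
        IsometricToBall g κ Ω r) ∧
      ∀ r', 0 ≤ r' → interior (closure Ω) = Ω → IsometricToBall g κ Ω r' →
        r' = r ∧ rmeas g (n - 1) (frontier Ω) = ENNReal.ofReal (modelArea n κ r) := by
  have hN : ∀ p, ∃ Ψ, Nice g p Ψ := fun p =>
    (exists_normal hκ hc hs p).imp fun Ψ h => h.nice
  obtain ⟨p₀⟩ : Nonempty M := inferInstance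
  obtain ⟨Ψ, hΨ⟩ := exists_normal hκ hc hs p₀
  set Ω' := interior (closure Ω) with hΩ'
  have hsub : Ω ⊆ Ω' := interior_maximal subset_closure hΩ.isOpen
  have hcl : closure Ω' = closure Ω :=
    subset_antisymm (closure_minimal interior_subset isClosed_closure) (closure_mono hsub)
  have hD : IsDomain (E n) Ω' :=
    ⟨isOpen_interior, by rw [hcl]; exact hΨ.isCompact hΩ.bounded, t1 Ω hΩ.isOpen hΩ.smooth⟩
  have hfr : frontier Ω' ⊆ frontier Ω := by
    rw [hD.isOpen.frontier_eq, hΩ.isOpen.frontier_eq, hcl]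
    exact diff_subset_diff_right hsub
  have hdiff : ∀ p ∈ Ω', p ∉ Ω → p ∈ frontier Ω := fun p hp hp' => by
    rw [hΩ.isOpen.frontier_eq]
    exact ⟨interior_subset hp, hp'⟩
  obtain ⟨z1, z2⟩ := t2 hN _ hΩ.smooth
  have hvol : rmeas g n Ω = rmeas g n Ω' := by
    refine le_antisymm (measure_mono hsub) ?_
    calc rmeas g n Ω' ≤ rmeas g n (Ω ∪ frontier Ω) := measure_mono fun p hp => by
          by_cases h : p ∈ Ω
          exacts [Or.inl h, Or.inr (hdiff p hp h)]
      _ ≤ rmeas g n Ω + rmeas g n (frontier Ω) := measure_union_le _ _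
      _ = rmeas g n Ω := by rw [z1, add_zero]
  obtain ⟨r, hr, h1, h2, h3, h4⟩ := core hn hκ hc hs hD
  refine ⟨r, hr, hvol.trans h1, h2.trans (measure_mono hfr), fun h => ?_, fun r' hr' he hi => ?_⟩
  · have he : Ω' = Ω := by
      refine subset_antisymm (fun p hp => ?_) hsub
      by_contra hp'
      have h5 := z2 p (hdiff p hp hp') Ω' hD.isOpen hp
      have h6 : Disjoint (frontier Ω') (frontier Ω ∩ Ω') := by
        rw [hD.isOpen.frontier_eq]
        exact disjoint_left.2 fun q hq hq' => hq.2 hq'.2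
      have h7 : rmeas g (n - 1) (frontier Ω') + rmeas g (n - 1) (frontier Ω ∩ Ω') ≤
          rmeas g (n - 1) (frontier Ω) := by
        rw [← measure_union h6 (isClosed_frontier.measurableSet.inter hD.isOpen.measurableSet)]
        exact measure_mono (union_subset hfr inter_subset_left)
      rw [h] at h7
      have h8 := (add_le_add_left h2 _).trans h7
      exact absurd h8 (not_le.2 (ENNReal.lt_add_right ENNReal.ofReal_ne_top h5))
    rw [he] at h3
    exact h3 h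
  · rw [he] at h4
    exact h4 r' hr' hi

omit [MeasurableSpace M] [BorelSpace M] in
theorem complete_of (h : IsComplete g ∨ Complete g) : Complete g :=
  h.elim (Vale.Agent.P219W88.hr g) id

/-- the equality case, for an arbitrary space form -/
theorem rigid [SimplyConnectedSpace M] (hn : 2 ≤ n) (hκ : κ ≤ 0) (hc : Complete g)
    (hs : SecLE g κ) (t1 : TWO1 n M) (t2 : TWO2 g) (t4 : BALL g) {Ω : Set M} (hΩ : IsDom g Ω) :
    ∃ r : ℝ, 0 ≤ r ∧ rmeas g n Ω = ENNReal.ofReal (modelVol n κ r) ∧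
      ENNReal.ofReal (modelArea n κ r) ≤ rmeas g (n - 1) (frontier Ω) ∧
      ∀ (N : Type) [TopologicalSpace N] [T2Space N] [ChartedSpace (E n) N]
        [IsManifold 𝓘(ℝ, E n) ∞ N] (h : RMetric (E n) N), TWO3 h g → IsSpaceForm h κ → ∀ o : N,
        (rmeas g (n - 1) (frontier Ω) = ENNReal.ofReal (modelArea n κ r) →
          Isometric h (gball h o r) g Ω) ∧
        ∀ r', 0 ≤ r' → Isometric h (gball h o r') g Ω →
          r' = r ∧ rmeas g (n - 1) (frontier Ω) = ENNReal.ofReal (modelArea n κ r) := by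
  obtain ⟨r, hr, h1, h2, h3, h4⟩ := general hn hκ hc hs t1 t2 hΩ
  refine ⟨r, hr, h1, h2, fun N _ _ _ _ h t3 hN o => ?_⟩
  obtain ⟨Θ, hΘ, hb⟩ := exists_theta hκ Vale.Agent.P219W78.cc (Vale.Agent.P219W13.mod_ hκ)
    (Vale.Agent.P219W88.hr h) hN o
  obtain ⟨Ψ⟩ := exists_chart hκ hc hs
  refine ⟨fun he => ?_, fun r' hr' hi => h4 r' hr' ?_ ?_⟩
  · rw [hb r hr]
    exact (Vale.Agent.P219W42.iso_iff g h Ψ Θ hκ hΘ Ω r).1 (h3 he)
  · rcases hr'.eq_or_lt with rfl | hpos
    · obtain ⟨φ, ψ, -, -, -, h5, -⟩ := hi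
      have h6 : Ω = ∅ := eq_empty_iff_forall_notMem.2 fun q hq => by
        have h7 : rdist h o (ψ q) < ENNReal.ofReal 0 := h5 hq
        simp at h7
      simp [h6]
    · have := hN.simplyConnected
      obtain ⟨p, hp⟩ := t3 (exists_normal hκ (Vale.Agent.P219W88.hr h hN.complete) hN.sec.secLE)
        (exists_normal hκ hc hs) o r' Ω hpos hΩ.isOpen hi
      rw [hp]
      exact (t4 (exists_normal hκ hc hs) p r').2.1
  · rw [hb r' hr'] at hi
    exact (Vale.Agent.P219W42.iso_iff g h Ψ Θ hκ hΘ Ω r').2 hi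

end Vale.Agent.P219W
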