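import Vale.Agent.P219W.Len

/-!
# P219W: normal charts of Cartan-Hadamard manifolds
-/

open scoped Manifold ContDiff ENNReal Topology RealInnerProductSpace
open Set MeasureTheory Filter

set_option linter.all false
set_option maxSynthPendingDepth 3

noncomputable section

namespace Vale.Agent.P219W

open Vale.Agent.P255 (RMetric)
open Vale.Agent.P219.Co (E)
open Vale.Agent.P219.Mfd (Complete SecLE)
open Vale.Agent.P219.RG
open Vale.Agent.P219.H381
open Vale.Agent.P219H381 (cpl_of_complete npc_of_sec inner_comp)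

/-- an orthonormal basis for a positive definite form, as a linear isomorphism -/
theorem exists_iso {n : ℕ} (B : E n →L[ℝ] E n →L[ℝ] ℝ) (hs : ∀ v w, B v w = B w v)
    (hp : ∀ v, v ≠ 0 → 0 < B v v) : ∃ L : E n ≃L[ℝ] E n, ∀ v w, B (L v) (L w) = ⟪v, w⟫ := by
  let B' : LinearMap.BilinForm ℝ (E n) := B.toBilinForm
  have hB : ∀ v w, B' v w = B v w := fun v w => rfl
  have hsymm : LinearMap.IsSymm B' := ⟨fun v w => hs v w⟩
  obtain ⟨b, hb⟩ := LinearMap.BilinForm.exists_orthogonal_basis hsymm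
  have hr : Module.finrank ℝ (E n) = n := by simp
  let c : Fin n → E n := fun i => b (i.cast hr.symm)
  have hc0 : ∀ i, 0 < B (c i) (c i) := fun i => hp _ (b.ne_zero _)
  let e : Fin n → E n := fun i => (√(B (c i) (c i)))⁻¹ • c i
  have he : ∀ i j, B (e i) (e j) = if i = j then 1 else 0 := by
    intro i j
    simp only [e, map_smul, FunLike.coe_smul, Pi.smul_apply, smul_eq_mul]
    split_ifs with h
    · subst h
      have h1 := Real.sqrt_pos.2 (hc0 i)
      have h2 := Real.mul_self_sqrt (hc0 i).le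
      field_simp
      linarith
    · have h1 : B' (c i) (c j) = 0 := hb (fun h2 => h (Fin.cast_injective _ h2))
      rw [hB] at h1
      rw [h1, mul_zero, mul_zero]
  let L₀ : E n →ₗ[ℝ] E n := (EuclideanSpace.basisFun (Fin n) ℝ).toBasis.constr ℝ e
  have hL : ∀ v, L₀ v = ∑ i, v i • e i := by
    intro v
    simp only [L₀, Module.Basis.constr_apply_fintype]
    rfl
  have key : ∀ v w, B (L₀ v) (L₀ w) = ⟪v, w⟫ := by
    intro v w
    rw [hL, hL]
    simp only [map_sum, map_smul, FunLike.coe_sum, Finset.sum_apply, FunLike.coe_smul,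
      Pi.smul_apply, smul_eq_mul, he, mul_ite, mul_one, mul_zero, Finset.sum_ite_eq',
      Finset.mem_univ, if_true, PiLp.inner_apply, RCLike.inner_apply, conj_trivial]
  have hinj : Function.Injective L₀ := by
    rw [injective_iff_map_eq_zero]
    intro v hv
    have := key v v
    rw [hv, map_zero] at this
    exact inner_self_eq_zero.1 this.symm
  exact ⟨(LinearEquiv.ofInjectiveEndo L₀ hinj).toContinuousLinearEquiv, key⟩

variable {n : ℕ} {M : Type} [TopologicalSpace M] [T2Space M] [ChartedSpace (E n) M]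
  [IsManifold 𝓘(ℝ, E n) ∞ M]

/-- normal charts -/
structure IsNormal (g : RMetric (E n) M) (p : M) (Ψ : E n ≃ₘ^∞⟮𝓘(ℝ, E n), 𝓘(ℝ, E n)⟯ M) :
    Prop where
  zero : Ψ 0 = p
  gauss : ∀ x w, pb g Ψ x x w = ⟪x, w⟫
  rauch : ∀ x w, ‖w‖ ^ 2 ≤ pb g Ψ x w w
  geo : ∀ γ, IsGeodesic (toMetric g) γ → γ 0 = p → ∃ x : E n,
    ‖x‖ ^ 2 = (toMetric g).sp γ 0 ∧ ∀ t : ℝ, γ t = Ψ (t • x)

theorem exists_normal [SimplyConnectedSpace M] {g : RMetric (E n) M} {K : ℝ} (hK : K ≤ 0)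
    (hc : Complete g) (hs : SecLE g K) (p : M) : ∃ Ψ, IsNormal g p Ψ := by
  have hcp := cpl_of_complete hc
  have hn := npc_of_sec hK hs
  obtain ⟨Φ, hΦ⟩ := cartanHadamard hcp hn p
  have he := isExp_expgC hcp
  obtain ⟨L, hL⟩ := exists_iso ((toMetric g).ip p) ((toMetric g).ip_symm p) ((toMetric g).ip_pos p)
  let Ψ : E n ≃ₘ^∞⟮𝓘(ℝ, E n), 𝓘(ℝ, E n)⟯ M := L.toDiffeomorph.trans Φ
  have hΨ : ∀ x, Ψ x = Φ (L x) := fun x => rfl
  have hpb : ∀ x v w, pb g Ψ x v w = pb g Φ (L x) (L v) (L w) := by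
    intro x v w
    have h1 := inner_comp g Φ (φ := L) (y := x) L.differentiableAt v w
    rw [L.fderiv] at h1
    exact h1
  have hch : ∀ x v w, pb g Φ x v w = (toMetric g).coef (Φ x) (chartAt (E n) (Φ x) (expC hcp p x))
      (fderiv ℝ (fun y => chartAt (E n) (Φ x) (expC hcp p y)) x v)
      (fderiv ℝ (fun y => chartAt (E n) (Φ x) (expC hcp p y)) x w) := by
    intro x v w
    rw [← pb_eq Φ g (mem_chart_source _ (Φ x)), ← hΦ]
    rfl
  have hmem : ∀ x, expC hcp p x ∈ (chartAt (E n) (Φ x)).source := fun x => by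
    rw [← hΦ]; exact mem_chart_source _ _
  refine ⟨Ψ, ?_, fun x w => ?_, fun x w => ?_, fun γ hγ h0 => ?_⟩
  · rw [hΨ, map_zero, hΦ]; exact he.zero p
  · rw [hpb, hch, he.gauss p _ _ _ (hmem _), hL]
  · rw [hpb, hch, ← real_inner_self_eq_norm_sq, ← hL]
    exact he.rauch hn p _ _ _ (hmem _)
  · refine ⟨L.symm (deriv (cc (E := E n) γ p) 0), ?_, fun t => ?_⟩
    · rw [← real_inner_self_eq_norm_sq, ← hL, L.apply_symm_apply]
      unfold Metric.sp
      rw [h0]
    · rw [hΨ, map_smul, L.apply_symm_apply, hΦ, he.uniq γ hγ t, h0]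

variable {g : RMetric (E n) M} {p : M} {Ψ : E n ≃ₘ^∞⟮𝓘(ℝ, E n), 𝓘(ℝ, E n)⟯ M}

omit [T2Space M] in
/-- the speed of a curve read in a global chart -/
theorem spd_comp (g : RMetric (E n) M) (Ψ : E n ≃ₘ^∞⟮𝓘(ℝ, E n), 𝓘(ℝ, E n)⟯ M) {c : ℝ → E n}
    {t : ℝ} {v : E n} (hc : HasDerivAt c v t) :
    spd g (fun s => Ψ (c s)) t = pb g Ψ (c t) v v := by
  have h1 : MDifferentiableAt 𝓘(ℝ, E n) 𝓘(ℝ, E n) Ψ (c t) :=
    (Ψ.contMDiff _).mdifferentiableAt (by simp)
  have h2 : MDifferentiableAt 𝓘(ℝ, ℝ) 𝓘(ℝ, E n) c t := hc.differentiableAt.mdifferentiableAt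
  have h3 := mfderiv_comp t h1 h2
  rw [mfderiv_eq_fderiv, hc.hasFDerivAt.fderiv] at h3
  have h4 : mfderiv 𝓘(ℝ, ℝ) 𝓘(ℝ, E n) (fun s => Ψ (c s)) t (1 : ℝ) =
      mfderiv 𝓘(ℝ, E n) 𝓘(ℝ, E n) Ψ (c t) v := by
    refine (congrArg (fun L => L (1 : ℝ)) h3).trans ?_
    change mfderiv 𝓘(ℝ, E n) 𝓘(ℝ, E n) Ψ (c t) ((1 : ℝ) • v) = _
    rw [one_smul]
  unfold spd
  rw [h4]
  rfl

/-- the segments of a global chart -/
theorem rdist_segment (g : RMetric (E n) M) (Ψ : E n ≃ₘ^∞⟮𝓘(ℝ, E n), 𝓘(ℝ, E n)⟯ M) {x y : E n}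
    {C : ℝ} (hC0 : 0 ≤ C)
    (hC : ∀ t ∈ Ioo (0 : ℝ) 1, pb g Ψ (x + t • (y - x)) (y - x) (y - x) ≤ C ^ 2) :
    rdist g (Ψ x) (Ψ y) ≤ ENNReal.ofReal C := by
  have hd : ∀ t : ℝ, HasDerivAt (fun s : ℝ => x + s • (y - x)) (y - x) t := fun t => by
    simpa using ((hasDerivAt_id t).smul_const (y - x)).const_add x
  have hsm : ContMDiff 𝓘(ℝ, ℝ) 𝓘(ℝ, E n) 1 (fun s : ℝ => Ψ (x + s • (y - x))) := by
    refine (Ψ.contMDiff.of_le (by simp)).comp (f := fun s : ℝ => x + s • (y - x)) ?_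
    rw [contMDiff_iff_contDiff]
    fun_prop
  have h := rdist_le_of_speed g (a := 0) (b := 1) hsm.contMDiffOn zero_le_one hC0
    (fun t ht => by rw [spd_comp g Ψ (hd t)]; exact hC t ht)
  simpa using h

theorem IsNormal.le_rdist (h : IsNormal g p Ψ) (x y : E n) :
    edist x y ≤ rdist g (Ψ x) (Ψ y) := by
  refine le_of_forall_gt fun r hr => ?_
  obtain ⟨γ, h0, h1, h2, h3⟩ := exists_curve g hr
  set c : ℝ → E n := fun t => Ψ.symm (γ t) with hc
  have hcd : ContDiff ℝ 1 c := by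
    rw [← contMDiff_iff_contDiff]
    exact (Ψ.symm.contMDiff.of_le (by simp)).comp h2
  have hγ : γ = fun t => Ψ (c t) := funext fun t => (Ψ.apply_symm_apply _).symm
  have e0 : c 0 = x := by simp only [hc, h0]; exact Ψ.symm_apply_apply x
  have e1 : c 1 = y := by simp only [hc, h1]; exact Ψ.symm_apply_apply y
  refine lt_of_le_of_lt ?_ h3
  rw [edist_comm, edist_eq_enorm_sub, ← e0, ← e1]
  refine (enorm_sub_le_lintegral_deriv_of_contDiffOn_Icc hcd.contDiffOn zero_le_one).trans ?_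
  rw [← restrict_Ioo_eq_restrict_Icc]
  refine lintegral_mono fun t => ?_
  have hd := (hcd.differentiable one_ne_zero t).hasDerivAt
  simp only
  rw [hγ, spd_comp g Ψ hd, ← ofReal_norm]
  exact ENNReal.ofReal_le_ofReal (Real.le_sqrt_of_sq_le (h.rauch _ _))

omit [T2Space M] in
theorem IsNormal.pb_zero (h : IsNormal g p Ψ) (v w : E n) : pb g Ψ 0 v w = ⟪v, w⟫ := by
  have hc : ContinuousAt (fun t : ℝ => pb g Ψ (t • v) v w) 0 := by
    have h1 : ContinuousAt (pb g Ψ) ((0 : ℝ) • v) :=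
      ((isMetricOn_pb Ψ g).contDiffAt (mem_univ _)).continuousAt
    have h2 : ContinuousAt (fun t : ℝ => pb g Ψ (t • v)) 0 :=
      ContinuousAt.comp (f := fun t : ℝ => t • v) h1 (by fun_prop)
    fun_prop
  have h3 : Tendsto (fun t : ℝ => pb g Ψ (t • v) v w) (𝓝[≠] 0) (𝓝 ⟪v, w⟫) := by
    refine tendsto_const_nhds.congr' ?_
    filter_upwards [self_mem_nhdsWithin] with t ht
    have h4 := h.gauss (t • v) w
    rw [map_smul, inner_smul_left] at h4
    exact (mul_left_cancel₀ ht h4).symm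
  have h5 := tendsto_nhds_unique (hc.tendsto.mono_left nhdsWithin_le_nhds) h3
  simpa using h5

theorem IsNormal.rdist_le (h : IsNormal g p Ψ) (c : ℝ) (hc : 1 < c) :
    ∃ δ > 0, ∀ x ∈ Metric.ball (0 : E n) δ, ∀ y ∈ Metric.ball (0 : E n) δ,
      rdist g (Ψ x) (Ψ y) ≤ ENNReal.ofReal c * edist x y := by
  have h1 : ContinuousAt (pb g Ψ) 0 := ((isMetricOn_pb Ψ g).contDiffAt (mem_univ _)).continuousAt
  have hpos : 0 < c ^ 2 - 1 := by nlinarith
  obtain ⟨δ, hδ, hb⟩ := Metric.continuousAt_iff.1 h1 _ hpos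
  refine ⟨δ, hδ, fun x hx y hy => ?_⟩
  rw [edist_comm, edist_eq_enorm_sub, ← ofReal_norm, ← ENNReal.ofReal_mul (by linarith)]
  refine rdist_segment g Ψ (by positivity) fun t ht => ?_
  have h2 : x + t • (y - x) ∈ Metric.ball (0 : E n) δ :=
    (convex_ball (0 : E n) δ).add_smul_sub_mem hx hy (Ioo_subset_Icc_self ht)
  have h3 := hb h2
  rw [dist_eq_norm] at h3
  have h4 := (pb g Ψ (x + t • (y - x)) - pb g Ψ 0).le_opNorm₂ (y - x) (y - x)
  rw [Real.norm_eq_abs] at h4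
  have h5 := (le_abs_self _).trans h4
  simp only [sub_apply] at h5
  rw [h.pb_zero, real_inner_self_eq_norm_sq] at h5
  have h6 := mul_le_mul_of_nonneg_right h3.le (mul_nonneg (norm_nonneg (y - x)) (norm_nonneg (y - x)))
  nlinarith

theorem IsNormal.nice (h : IsNormal g p Ψ) : Nice g p Ψ :=
  ⟨h.zero, h.pb_zero, h.le_rdist, h.rdist_le⟩

theorem IsNormal.rdist_zero (h : IsNormal g p Ψ) (x : E n) :
    rdist g p (Ψ x) = ENNReal.ofReal ‖x‖ := by
  apply le_antisymm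
  · rw [← h.zero]
    refine rdist_segment g Ψ (norm_nonneg _) fun t ht => ?_
    have h4 := h.gauss (t • x) x
    rw [map_smul, inner_smul_left] at h4
    have h5 : pb g Ψ (t • x) x x = ⟪x, x⟫ := mul_left_cancel₀ ht.1.ne' h4
    rw [zero_add, sub_zero, h5, real_inner_self_eq_norm_sq]
  · have h1 := h.le_rdist 0 x
    rwa [h.zero, edist_comm, edist_eq_enorm_sub, sub_zero, ← ofReal_norm] at h1

theorem IsNormal.gball (h : IsNormal g p Ψ) (r : ℝ) :
    gball g p r = Ψ '' Metric.ball 0 r := by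
  ext q
  obtain ⟨x, rfl⟩ := Ψ.surjective q
  have e : Ψ.toEquiv x = Ψ x := rfl
  have hi : Function.Injective Ψ := Ψ.injective
  rw [e, hi.mem_set_image, mem_ball_zero_iff]
  change rdist g p (Ψ x) < _ ↔ _
  rw [h.rdist_zero, ENNReal.ofReal_lt_ofReal_iff_of_nonneg (norm_nonneg _)]

/-- bounded sets are relatively compact -/
theorem IsNormal.isCompact (h : IsNormal g p Ψ) {Ω : Set M}
    (hb : ∃ R : ℝ, ∀ x ∈ Ω, ∀ y ∈ Ω, rdist g x y ≤ ENNReal.ofReal R) : IsCompact (closure Ω) := by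
  obtain ⟨R, hR⟩ := hb
  have h1 : Bornology.IsBounded (Ψ ⁻¹' Ω) := by
    refine Metric.isBounded_iff.2 ⟨max R 0, fun x hx y hy => ?_⟩
    have h2 := (h.le_rdist x y).trans (hR _ hx _ hy)
    rw [edist_dist] at h2
    exact (ENNReal.ofReal_le_ofReal_iff (le_max_right _ _)).1
      (h2.trans (ENNReal.ofReal_le_ofReal (le_max_left _ _)))
  have h3 : IsCompact (Ψ.toHomeomorph ⁻¹' closure Ω) := by
    rw [Ψ.toHomeomorph.preimage_closure]
    exact h1.isCompact_closure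
  exact (Ψ.toHomeomorph.isCompact_preimage).1 h3

/-- geodesic completeness implies metric completeness -/
theorem IsNormal.isComplete (h : IsNormal g p Ψ) : IsComplete g := by
  letI := riemSpace g
  refine EMetric.complete_of_cauchySeq_tendsto fun u hu => ?_
  have h1 : CauchySeq fun k => Ψ.symm (u k) := by
    rw [EMetric.cauchySeq_iff] at hu ⊢
    intro ε hε
    obtain ⟨N, hN⟩ := hu ε hε
    refine ⟨N, fun i hi j hj => lt_of_le_of_lt ?_ (hN i hi j hj)⟩
    have h2 := h.le_rdist (Ψ.symm (u i)) (Ψ.symm (u j))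
    rwa [Ψ.apply_symm_apply, Ψ.apply_symm_apply] at h2
  obtain ⟨x, hx⟩ := cauchySeq_tendsto_of_complete h1
  refine ⟨Ψ x, ?_⟩
  have h3 := (Ψ.continuous.tendsto x).comp hx
  refine h3.congr fun k => ?_
  exact Ψ.apply_symm_apply _

end Vale.Agent.P219W
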