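import Vale.Agent.P219W.Defs
import Vale.Agent.P219.H381.Main2

/-!
# P219W: normal charts and the statements of the steps
-/

open scoped Manifold ContDiff ENNReal RealInnerProductSpace
open Set MeasureTheory

namespace Vale.Agent.P219W

open Vale.Agent.P255 (RMetric coefIn Riem)
open Vale.Agent.P219.Co (E modelVol modelArea sn SmoothDomain)
open Vale.Agent.P219.Mfd
open Vale.Agent.P219.RG (IsMetricOn curv IsGeodesic toMetric cc)
open Vale.Agent.P219.H381 (pb)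
open Vale.Agent.P219H381 (volM areaM)

/-- two metrics of constant curvature `κ` in normal coordinates (Gauss lemma) agree -/
def CC (n : ℕ) (κ : ℝ) : Prop :=
  ∀ H₁ H₂ : E n → E n →L[ℝ] E n →L[ℝ] ℝ, IsMetricOn H₁ univ → IsMetricOn H₂ univ →
    (∀ x w, H₁ x x w = ⟪x, w⟫) → (∀ x w, H₂ x x w = ⟪x, w⟫) →
    (∀ x v w, H₁ x (curv H₁ x v w w) v = κ * (H₁ x v v * H₁ x w w - H₁ x v w ^ 2)) →
    (∀ x v w, H₂ x (curv H₂ x v w w) v = κ * (H₂ x v v * H₂ x w w - H₂ x v w ^ 2)) → H₁ = H₂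

/-- the hyperboloid model -/
def MOD (n : ℕ) (κ : ℝ) : Prop := ∃ h : RMetric (E n) (E n),
    (∀ y v w : E n, h.inner y v w = ⟪v, w⟫ + κ * ⟪y, v⟫ * ⟪y, w⟫ / (1 - κ * ‖y‖ ^ 2)) ∧
    Complete h ∧ SecEq h κ ∧
    ∀ u : E n, ‖u‖ = 1 → IsGeodesic (toMetric h) (fun t => sn √(-κ) t • u)

variable {n : ℕ} {M : Type} [TopologicalSpace M] [T2Space M] [ChartedSpace (E n) M]
  [IsManifold 𝓘(ℝ, E n) ∞ M]

/-- Hopf-Rinow: metric completeness implies geodesic completeness -/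
def HR (g : RMetric (E n) M) : Prop := IsComplete g → Complete g

/-- a global chart centred at `p` which is almost isometric near `0` and expands distances -/
structure Nice (g : RMetric (E n) M) (p : M) (Ψ : E n ≃ₘ^∞⟮𝓘(ℝ, E n), 𝓘(ℝ, E n)⟯ M) : Prop where
  zero : Ψ 0 = p
  pb_zero : ∀ v w, pb g Ψ 0 v w = ⟪v, w⟫
  le_rdist : ∀ x y, edist x y ≤ rdist g (Ψ x) (Ψ y)
  rdist_le : ∀ c : ℝ, 1 < c → ∃ δ > 0, ∀ x ∈ Metric.ball (0 : E n) δ, ∀ y ∈ Metric.ball (0 : E n) δ,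
    rdist g (Ψ x) (Ψ y) ≤ ENNReal.ofReal c * edist x y

variable [MeasurableSpace M] [BorelSpace M]

/-- the area formula for injective immersions -/
def AF (g : RMetric (E n) M) : Prop := (∀ p, ∃ Ψ, Nice g p Ψ) →
  ∀ (k : ℕ) (φ : E k → M) (U s : Set (E k)), IsOpen U → SmoothMapOn (E n) φ U → InjOn φ U →
    (∀ y ∈ U, Function.Injective (mfderiv 𝓘(ℝ, E k) 𝓘(ℝ, E n) φ y)) → MeasurableSet s →
    s ⊆ U → rmeas g k (φ '' s) = ∫⁻ y in s, ENNReal.ofReal √(induced g φ y).det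

/-- the Hausdorff measure of the boundary is the area in charts -/
def HA (g : RMetric (E n) M) : Prop := (∀ p, ∃ Ψ, Nice g p Ψ) →
  ∀ (Ω : Set M) (σ : Measure M), IsDomain (E n) Ω → IsArea g Ω σ →
    σ univ = rmeas g (n - 1) (frontier Ω)

end Vale.Agent.P219W
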