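import Vale.Agent.P219W.St
import Vale.Agent.P219I78.Defs

/-! # P219: space forms, by the sectional curvature of the Levi-Civita connection -/

open scoped Manifold ContDiff

namespace Vale.Agent.P219S

open Vale.Agent.P255 (RMetric)
open Vale.Agent.P219I (SecIn)

variable {V : Type} [NormedAddCommGroup V] [NormedSpace ℝ V] [FiniteDimensional ℝ V]
variable {M : Type} [TopologicalSpace M] [T2Space M] [ChartedSpace V M] [IsManifold 𝓘(ℝ, V) ∞ M]

/-- `(M, g)` is a simply connected space form of curvature `κ`. -/
def SpaceForm (g : RMetric V M) (κ : ℝ) : Prop :=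
  SimplyConnectedSpace M ∧ MetricComplete g ∧ SecIn g {κ}

variable (V) in
/-- `V` carries a metric which makes it a simply connected space form of curvature `κ`. -/
def HasModel (κ : ℝ) : Prop := ∃ h : RMetric V V, SpaceForm h κ

end Vale.Agent.P219S
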