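import Vale.Agent.P219W.Norm
import Vale.Agent.P219.H732.Prof

/-!
# P219W: every simply connected space form is isometric to the hyperboloid model
-/

open scoped Manifold ContDiff ENNReal Topology RealInnerProductSpace
open Set MeasureTheory Filter

set_option linter.all false
set_option maxSynthPendingDepth 3

noncomputable section

namespace Vale.Agent.P219W

open Vale.Agent.P255 (RMetric coefIn)
open Vale.Agent.P219.Co (E sn)
open Vale.Agent.P219.Co.Prof732 (hasDerivAt_sn sn_mono sn_zero one_le_cs cs)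
open Vale.Agent.P219.Mfd (Complete SecLE)
open Vale.Agent.P219.RG
open Vale.Agent.P219.H381
open Vale.Agent.P219H381 (cpl_of_complete npc_of_sec inner_comp)

variable {n : ℕ} {N : Type} [TopologicalSpace N] [ChartedSpace (E n) N]
  [IsManifold 𝓘(ℝ, E n) ∞ N]

theorem SecEq.secLE {h : RMetric (E n) N} {κ : ℝ} (hs : SecEq h κ) : SecLE h κ :=
  fun a u hu v w => (hs a u hu v w).le

theorem SecEq.pb {h : RMetric (E n) N} {κ : ℝ} (hs : SecEq h κ)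
    (Ψ : E n ≃ₘ^∞⟮𝓘(ℝ, E n), 𝓘(ℝ, E n)⟯ N) (x v w : E n) :
    pb h Ψ x (curv (pb h Ψ) x v w w) v =
      κ * (pb h Ψ x v v * pb h Ψ x w w - pb h Ψ x v w ^ 2) := by
  have ha : Ψ x ∈ (chartAt (E n) (Ψ x)).source := mem_chart_source _ _
  have hu : tau Ψ (Ψ x) x ∈ (chartAt (E n) (Ψ x)).target := (chartAt (E n) (Ψ x)).map_source ha
  have h1 := hs (Ψ x) (tau Ψ (Ψ x) x) hu (fderiv ℝ (tau Ψ (Ψ x)) x v)
    (fderiv ℝ (tau Ψ (Ψ x)) x w)
  rw [riem_coefIn h hu, ← pb_curv Ψ h ha] at h1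
  have e : ∀ p q : E n, coefIn h (Ψ x) (tau Ψ (Ψ x) x) (fderiv ℝ (tau Ψ (Ψ x)) x p)
      (fderiv ℝ (tau Ψ (Ψ x)) x q) = Vale.Agent.P219.H381.pb h Ψ x p q :=
    fun p q => pb_eq Ψ h ha p q
  simp only [e] at h1
  exact h1

theorem sn_surj (b : ℝ) {s : ℝ} (hs : 0 ≤ s) : ∃ t, 0 ≤ t ∧ sn b t = s := by
  have hc : Continuous (sn b) :=
    continuous_iff_continuousAt.2 fun t => (hasDerivAt_sn b t).continuousAt
  have h1 : s ≤ sn b s := by
    have hm : Monotone fun t => sn b t - t := by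
      refine monotone_of_deriv_nonneg (fun t => ?_) fun t => ?_
      · exact ((hasDerivAt_sn b t).sub (hasDerivAt_id t)).differentiableAt
      · have h2 : HasDerivAt (fun t => sn b t - t) (cs b t - 1) t :=
          (hasDerivAt_sn b t).sub (hasDerivAt_id t)
        rw [h2.deriv]
        linarith [one_le_cs b t]
    have h3 := hm hs
    simp only [sn_zero, sub_zero] at h3
    linarith
  obtain ⟨t, ht, h4⟩ := intermediate_value_Icc hs hc.continuousOn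
    (show s ∈ Icc (sn b 0) (sn b s) from ⟨by rw [sn_zero]; exact hs, h1⟩)
  exact ⟨t, ht.1, h4⟩

/-- the geodesic balls about the origin of the model -/
theorem model_ball {κ : ℝ} {h : RMetric (E n) (E n)}
    (h1 : ∀ y v w : E n, h.inner y v w = ⟪v, w⟫ + κ * ⟪y, v⟫ * ⟪y, w⟫ / (1 - κ * ‖y‖ ^ 2))
    (h2 : ∀ u : E n, ‖u‖ = 1 → IsGeodesic (toMetric h) (fun t => sn √(-κ) t • u))
    {Ψ : E n ≃ₘ^∞⟮𝓘(ℝ, E n), 𝓘(ℝ, E n)⟯ E n} (hΨ : IsNormal h 0 Ψ) {r : ℝ} (hr : 0 ≤ r) :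
    Ψ '' Metric.ball 0 r = {y | ∑ i, y i ^ 2 < sn √(-κ) r ^ 2} := by
  have key : ∀ x : E n, ‖Ψ x‖ = sn √(-κ) ‖x‖ := by
    intro x
    by_cases h0 : Ψ x = 0
    · have h3 : x = 0 := Ψ.injective (h0.trans hΨ.zero.symm)
      rw [h0, h3, norm_zero, sn_zero]
    have hn : 0 < ‖Ψ x‖ := norm_pos_iff.2 h0
    set u : E n := ‖Ψ x‖⁻¹ • Ψ x with hu
    have hu1 : ‖u‖ = 1 := by rw [hu, norm_smul, norm_inv, norm_norm, inv_mul_cancel₀ hn.ne']
    obtain ⟨z, hz1, hz2⟩ := hΨ.geo _ (h2 u hu1) (by simp only [sn_zero, zero_smul])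
    have hd : HasDerivAt (fun t => sn √(-κ) t • u) u 0 := by
      have h4 := (hasDerivAt_sn √(-κ) 0).smul_const u
      have h5 : cs √(-κ) 0 = 1 := by
        unfold cs
        split_ifs <;> simp
      rwa [h5, one_smul] at h4
    have hz3 : ‖z‖ = 1 := by
      have h6 : (toMetric h).sp (fun t => sn √(-κ) t • u) 0 = 1 := by
        unfold Metric.sp
        rw [ip_eq]
        have h7 : deriv (cc (E := E n) (fun t => sn √(-κ) t • u) (sn √(-κ) 0 • u)) 0 = u :=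
          hd.deriv
        rw [h7, h1, real_inner_self_eq_norm_sq, hu1]
        simp [sn_zero]
      rw [h6] at hz1
      exact (pow_eq_one_iff_of_nonneg (norm_nonneg z) two_ne_zero).1 hz1
    obtain ⟨t, ht0, ht⟩ := sn_surj √(-κ) hn.le
    have h8 : Ψ x = Ψ (t • z) := by
      rw [← hz2 t, ht, hu, smul_inv_smul₀ hn.ne']
    have h9 : x = t • z := Ψ.injective h8
    rw [← ht, h9, norm_smul, hz3, mul_one, Real.norm_eq_abs, abs_of_nonneg ht0]
  ext y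
  obtain ⟨x, rfl⟩ := Ψ.surjective y
  have e : Ψ.toEquiv x = Ψ x := rfl
  have hi : Function.Injective Ψ := Ψ.injective
  have hsn : 0 ≤ sn √(-κ) r := by rw [← sn_zero √(-κ)]; exact (sn_mono _).monotone hr
  rw [e, hi.mem_set_image, mem_ball_zero_iff, mem_setOf_eq, ← EuclideanSpace.real_norm_sq_eq,
    sq_lt_sq₀ (norm_nonneg _) hsn, key, (sn_mono _).lt_iff_lt]

theorem model_spaceForm {κ : ℝ} (hκ : κ ≤ 0) (hm : MOD n κ) :
    ∃ h : RMetric (E n) (E n), IsSpaceForm h κ := by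
  obtain ⟨h, -, h2, h3, -⟩ := hm
  obtain ⟨Ψ, hΨ⟩ := exists_normal hκ h2 h3.secLE 0
  exact ⟨h, inferInstance, hΨ.isComplete, h3⟩

/-- the Killing-Hopf theorem -/
theorem exists_theta [T2Space N] {κ : ℝ} (hκ : κ ≤ 0) (hcc : CC n κ) (hm : MOD n κ)
    {h : RMetric (E n) N} (hr : HR h) (hN : IsSpaceForm h κ) (o : N) :
    ∃ Θ : E n ≃ₘ^∞⟮𝓘(ℝ, E n), 𝓘(ℝ, E n)⟯ N,
      (∀ y v w, pb h Θ y v w = ⟪v, w⟫ + κ * ⟪y, v⟫ * ⟪y, w⟫ / (1 - κ * ‖y‖ ^ 2)) ∧
      ∀ r, 0 ≤ r → gball h o r = Θ '' {y | ∑ i, y i ^ 2 < sn √(-κ) r ^ 2} := by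
  obtain ⟨h₀, h1, h2, h3, h4⟩ := hm
  obtain ⟨Ψ₀, hΨ₀⟩ := exists_normal hκ h2 h3.secLE 0
  have := hN.simplyConnected
  obtain ⟨Ψ, hΨ⟩ := exists_normal hκ (hr hN.complete) hN.sec.secLE o
  have he : pb h Ψ = pb h₀ Ψ₀ := hcc _ _ (isMetricOn_pb Ψ h) (isMetricOn_pb Ψ₀ h₀) hΨ.gauss
    hΨ₀.gauss (hN.sec.pb Ψ) (h3.pb Ψ₀)
  refine ⟨Ψ₀.symm.trans Ψ, fun y v w => ?_, fun r hr0 => ?_⟩
  · have hd : DifferentiableAt ℝ Ψ₀.symm y :=
      (contMDiff_iff_contDiff.1 Ψ₀.symm.contMDiff).differentiable (by simp) y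
    have k1 := inner_comp h Ψ hd v w
    have k2 := inner_comp h₀ Ψ₀ hd v w
    have k3 : (fun z => Ψ₀ (Ψ₀.symm z)) = id := funext fun z => Ψ₀.apply_symm_apply z
    rw [k3, mfderiv_id, ← he, ← k1] at k2
    have k4 : ∀ q : E n, q = y → h₀.inner q v w = h₀.inner y v w := fun q hq => by rw [hq]
    rw [← h1, ← k4 _ (Ψ₀.apply_symm_apply y)]
    exact k2.symm
  · rw [hΨ.gball, ← model_ball h1 h4 hΨ₀ hr0, image_image]
    refine image_congr fun x _ => ?_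
    change Ψ x = Ψ (Ψ₀.symm (Ψ₀ x))
    rw [Ψ₀.symm_apply_apply]

end Vale.Agent.P219W
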